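import Vale.Agent.P117.KC.Rep3

/-! # The blocks LOC3 and BER3 -/

open MeasureTheory Complex Set
open scoped ENNReal NNReal ContDiff FourierTransform

set_option linter.all false

namespace Vale.Agent.P117.KC

open Vale.Agent.P117.K (grd v1 v2 omv om gam Phs Ams pc den SqS xist StLOC3 StBER3)
open Vale.Agent.P106.Tri (ec norm_ec enorm_ec ec_add ec_zero continuous_ec inv_eq)

/-! ### geometry of the pieces -/

theorem omv_eq (a b : ℝ) : omv a b = W a b := rfl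

theorem norm_om (N : ℕ) (k : ℤ × ℤ) : ‖om N k‖ = 1 := norm_W _ _

theorem abs_coord_le (x : E3) (i : Fin 3) : |x i| ≤ ‖x‖ := by
  have := PiLp.norm_apply_le x i
  simpa using this

theorem xist0 : xist 0 = 4/9 := rfl
theorem xist1 : xist 1 = 4/9 := rfl
theorem xist2 : xist 2 = 7/9 := rfl

/-- localisation of the coordinates -/
theorem v_near {c1 : ℝ} (hc : c1 ≤ 1/10) {ξ : E3} (h : ‖ξ - xist‖ ≤ c1) :
    1 ≤ 1 + ξ 2 ∧ |v1 ξ - 1/4| ≤ 5/4 * c1 ∧ |v2 ξ - 1/4| ≤ 5/4 * c1 := by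
  have h0 := (abs_coord_le (ξ - xist) 0).trans h
  have h1 := (abs_coord_le (ξ - xist) 1).trans h
  have h2 := (abs_coord_le (ξ - xist) 2).trans h
  simp only [PiLp.sub_apply, xist0, xist1, xist2] at h0 h1 h2
  rw [abs_le] at h0 h1 h2
  have hs : 1 ≤ 1 + ξ 2 := by linarith
  have hp : 0 < 1 + ξ 2 := by linarith
  refine ⟨hs, ?_, ?_⟩
  · unfold v1
    have e : ξ 0 / (1 + ξ 2) - 1/4 = (ξ 0 - (1 + ξ 2) / 4) / (1 + ξ 2) := by field_simp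
    rw [e, abs_div, abs_of_pos hp, div_le_iff₀ hp, abs_le]
    constructor <;> nlinarith
  · unfold v2
    have e : ξ 1 / (1 + ξ 2) - 1/4 = (ξ 1 - (1 + ξ 2) / 4) / (1 + ξ 2) := by field_simp
    rw [e, abs_div, abs_of_pos hp, div_le_iff₀ hp, abs_le]
    constructor <;> nlinarith

theorem pc_ne {N : ℕ} {o1 o2 : ℝ} {k : ℤ × ℤ} {g : E3 → ℂ} {ξ : E3} (h : pc N o1 o2 k g ξ ≠ 0) :
    (⌊N * v1 ξ - o1⌋, ⌊N * v2 ξ - o2⌋) = k ∧ g ξ ≠ 0 := by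
  unfold pc at h
  split_ifs at h with h1
  · exact ⟨h1, h⟩
  · exact absurd rfl h

theorem measurable_v1 : Measurable v1 := by
  unfold v1
  fun_prop

theorem measurable_v2 : Measurable v2 := by
  unfold v2
  fun_prop

theorem measurableSet_cell (N : ℕ) (o1 o2 : ℝ) (k : ℤ × ℤ) :
    MeasurableSet {ξ : E3 | (⌊N * v1 ξ - o1⌋, ⌊N * v2 ξ - o2⌋) = k} := by
  have h1 : Measurable fun ξ : E3 => ⌊N * v1 ξ - o1⌋ :=
    Int.measurable_floor.comp ((measurable_v1.const_mul _).sub_const _)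
  have h2 : Measurable fun ξ : E3 => ⌊N * v2 ξ - o2⌋ :=
    Int.measurable_floor.comp ((measurable_v2.const_mul _).sub_const _)
  exact (h1.prodMk h2) (measurableSet_singleton k)

theorem pc_eq_indicator (N : ℕ) (o1 o2 : ℝ) (k : ℤ × ℤ) (g : E3 → ℂ) :
    pc N o1 o2 k g = {ξ : E3 | (⌊N * v1 ξ - o1⌋, ⌊N * v2 ξ - o2⌋) = k}.indicator g := by
  classical
  ext ξ
  unfold pc
  rw [Set.indicator_apply]
  simp only [Set.mem_setOf_eq]

theorem integrable_pc {N : ℕ} {o1 o2 : ℝ} {k : ℤ × ℤ} {g : E3 → ℂ} (hg : Integrable g) :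
    Integrable (pc N o1 o2 k g) := by
  rw [pc_eq_indicator]
  exact hg.indicator (measurableSet_cell N o1 o2 k)

theorem measurable_pc {N : ℕ} {o1 o2 : ℝ} {k : ℤ × ℤ} {g : E3 → ℂ} (hg : Measurable g) :
    Measurable (pc N o1 o2 k g) := by
  rw [pc_eq_indicator]
  exact hg.indicator (measurableSet_cell N o1 o2 k)

/-- index of the cell is in the grid -/
theorem floor_grd {N : ℕ} (hN : 4 ≤ N) {o1 o2 c1 : ℝ} (ho1 : o1 ∈ Icc (0:ℝ) (1/2)) (ho2 : o2 ∈ Icc (0:ℝ) (1/2))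
    (hc : c1 ≤ 1/100) {ξ : E3} (h : ‖ξ - xist‖ ≤ c1) :
    (⌊N * v1 ξ - o1⌋, ⌊N * v2 ξ - o2⌋) ∈ grd N := by
  obtain ⟨-, h1, h2⟩ := v_near (hc.trans (by norm_num)) h
  rw [abs_le] at h1 h2
  have hN' : (4:ℝ) ≤ N := by exact_mod_cast hN
  have aux : ∀ v o : ℝ, o ∈ Icc (0:ℝ) (1/2) → -(5/4 * c1) ≤ v - 1/4 → v - 1/4 ≤ 5/4 * c1 → ⌊N * v - o⌋ ∈ Finset.Ico (0:ℤ) N := by
    intro v o ho a b
    rw [Finset.mem_Ico]
    have hv : 1/5 ≤ v := by linarith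
    have hv2 : v ≤ 1/2 := by linarith
    constructor
    · rw [Int.floor_nonneg]
      have := ho.2
      nlinarith
    · rw [Int.floor_lt]
      have := ho.1
      push_cast
      nlinarith
  unfold grd
  rw [Finset.mem_product]
  exact ⟨aux _ _ ho1 h1.1 h1.2, aux _ _ ho2 h2.1 h2.2⟩

theorem sum_pc {N : ℕ} (hN : 4 ≤ N) {o1 o2 c1 : ℝ} (ho1 : o1 ∈ Icc (0:ℝ) (1/2)) (ho2 : o2 ∈ Icc (0:ℝ) (1/2))
    (hc : c1 ≤ 1/100) {g : E3 → ℂ} (hg : ∀ ξ, g ξ ≠ 0 → ‖ξ - xist‖ ≤ c1) (ξ : E3) :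
    g ξ = ∑ k ∈ grd N, pc N o1 o2 k g ξ := by
  classical
  by_cases h : g ξ = 0
  · rw [h, Finset.sum_eq_zero]
    intro k _
    unfold pc
    rw [h, ite_self]
  · have hm := floor_grd hN ho1 ho2 hc (hg ξ h)
    rw [Finset.sum_eq_single_of_mem _ hm]
    · unfold pc
      rw [if_pos rfl]
    · intro k _ hk
      unfold pc
      rw [if_neg (fun e => hk e.symm)]

theorem inv_sum {N : ℕ} (hN : 4 ≤ N) {o1 o2 c1 : ℝ} (ho1 : o1 ∈ Icc (0:ℝ) (1/2)) (ho2 : o2 ∈ Icc (0:ℝ) (1/2))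
    (hc : c1 ≤ 1/100) {g : E3 → ℂ} (hgi : Integrable g) (hg : ∀ ξ, g ξ ≠ 0 → ‖ξ - xist‖ ≤ c1) (z : E3) :
    𝓕⁻ g z = ∑ k ∈ grd N, 𝓕⁻ (pc N o1 o2 k g) z := by
  simp_rw [Vale.Agent.P106.Tri.inv_eq]
  have h1 := continuous_ec
  have hk : ∀ k ∈ grd N, Integrable (fun v : E3 => ec (inner ℝ v z) * pc N o1 o2 k g v) := by
    intro k _
    have h2 : Integrable (pc N o1 o2 k g) := integrable_pc hgi
    have h3 : Continuous (fun v : E3 => ec (inner ℝ v z)) := h1.comp (by fun_prop)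
    exact h2.bdd_mul (c := 1) h3.aestronglyMeasurable (by filter_upwards with v; rw [norm_ec])
  rw [← integral_finset_sum _ hk]
  congr 1
  ext v
  rw [← Finset.mul_sum, ← sum_pc hN ho1 ho2 hc hg]

/-- the piece `k` is supported in the slab of dimensions `1/N, 1/N, 1/N²` adapted to `om k` -/
theorem pc_supp {N : ℕ} (hN : 4 ≤ N) {o1 o2 c1 : ℝ} (ho1 : o1 ∈ Icc (0:ℝ) (1/2)) (ho2 : o2 ∈ Icc (0:ℝ) (1/2))
    (hc : c1 ≤ 1/100) {g : E3 → ℂ} (hs : ∀ ξ, g ξ ≠ 0 → |‖ξ‖ ^ 2 - 1| ≤ c1 / (N:ℝ) ^ 2)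
    (hg : ∀ ξ, g ξ ≠ 0 → ‖ξ - xist‖ ≤ c1) {k : ℤ × ℤ} {ξ : E3} (h : pc N o1 o2 k g ξ ≠ 0) :
    ‖ξ - om N k‖ ≤ 7 / N ∧ |(inner ℝ (om N k) (ξ - om N k) : ℝ)| ≤ 19 / (N:ℝ) ^ 2 := by
  obtain ⟨hk, hgξ⟩ := pc_ne h
  have hN' : (4:ℝ) ≤ N := by exact_mod_cast hN
  have hN0 : (0:ℝ) < N := by linarith
  obtain ⟨hs1, -, -⟩ := v_near (hc.trans (by norm_num)) (hg ξ hgξ)
  have hd : ‖ξ - W (v1 ξ) (v2 ξ)‖ ≤ (1/100) / (N:ℝ) ^ 2 := by
    have := dist_W (ξ := ξ) (s := 1) one_pos hs1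
    rw [div_one] at this
    refine this.trans ((hs ξ hgξ).trans ?_)
    gcongr
  have e1 : ⌊N * v1 ξ - o1⌋ = k.1 := congrArg Prod.fst hk
  have e2 : ⌊N * v2 ξ - o2⌋ = k.2 := congrArg Prod.snd hk
  have aux : ∀ (v o : ℝ) (j : ℤ), o ∈ Icc (0:ℝ) (1/2) → ⌊N * v - o⌋ = j → |v - j / N| ≤ 3/2 / N := by
    intro v o j ho hj
    have a1 := Int.floor_le (N * v - o)
    have a2 := Int.lt_floor_add_one (N * v - o)
    rw [hj] at a1 a2
    have e : v - j / N = (N * v - j) / N := by field_simp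
    rw [e, abs_div, abs_of_pos hN0]
    gcongr
    rw [abs_le]
    have := ho.1
    have := ho.2
    constructor <;> linarith
  have b1 := aux _ _ _ ho1 e1
  have b2 := aux _ _ _ ho2 e2
  have hl : ‖W (v1 ξ) (v2 ξ) - om N k‖ ≤ 6 / N := by
    have := W_lip (v1 ξ) (v2 ξ) (k.1 / N) (k.2 / N)
    refine this.trans ?_
    calc 2 * (|v1 ξ - k.1 / N| + |v2 ξ - k.2 / N|) ≤ 2 * (3/2 / N + 3/2 / N) := by gcongr
      _ = 6 / N := by ring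
  have hdN : (1/100) / (N:ℝ) ^ 2 ≤ 1 / N := by
    rw [div_le_div_iff₀ (by positivity) hN0]
    nlinarith
  set v := W (v1 ξ) (v2 ξ) with hv
  set w := om N k with hw
  have hw1 : ‖w‖ = 1 := norm_om N k
  have hv1 : ‖v‖ = 1 := norm_W _ _
  constructor
  · calc ‖ξ - w‖ = ‖(ξ - v) + (v - w)‖ := by congr 1; abel
      _ ≤ ‖ξ - v‖ + ‖v - w‖ := norm_add_le _ _
      _ ≤ 1 / N + 6 / N := by gcongr; exact hd.trans hdN
      _ = 7 / N := by ring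
  · have i1 : (inner ℝ w (ξ - w) : ℝ) = inner ℝ w (ξ - v) + inner ℝ w (v - w) := by
      rw [← inner_add_right]; congr 1; abel
    have i2 : (inner ℝ w (v - w) : ℝ) = -(‖v - w‖ ^ 2 / 2) := by
      have h3 := norm_sub_sq_real v w
      have h4 : (inner ℝ w w : ℝ) = 1 := by rw [real_inner_self_eq_norm_sq, hw1]; norm_num
      rw [inner_sub_right, h4, real_inner_comm v w]
      rw [hv1, hw1] at h3
      rw [h3]
      rw [real_inner_comm]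
      ring
    have i3 : |(inner ℝ w (ξ - v) : ℝ)| ≤ (1/100) / (N:ℝ) ^ 2 := by
      refine (abs_real_inner_le_norm _ _).trans ?_
      rw [hw1, one_mul]; exact hd
    have i4 : ‖v - w‖ ^ 2 / 2 ≤ 18 / (N:ℝ) ^ 2 := by
      have : ‖v - w‖ ^ 2 ≤ (6 / N) ^ 2 := by gcongr
      rw [div_pow] at this
      calc ‖v - w‖ ^ 2 / 2 ≤ (6 ^ 2 / (N:ℝ) ^ 2) / 2 := by gcongr
        _ = 18 / (N:ℝ) ^ 2 := by ring
    rw [i1, i2]
    calc |(inner ℝ w (ξ - v) : ℝ) + -(‖v - w‖ ^ 2 / 2)| ≤ |(inner ℝ w (ξ - v) : ℝ)| + |-(‖v - w‖ ^ 2 / 2)| := abs_add_le _ _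
      _ = |(inner ℝ w (ξ - v) : ℝ)| + ‖v - w‖ ^ 2 / 2 := by
          rw [abs_neg, abs_of_nonneg (by positivity : 0 ≤ ‖v - w‖ ^ 2 / 2)]
      _ ≤ (1/100) / (N:ℝ) ^ 2 + 18 / (N:ℝ) ^ 2 := by gcongr
      _ ≤ 19 / (N:ℝ) ^ 2 := by rw [← add_div]; gcongr; norm_num

theorem pc_Bv {N : ℕ} (hN : 4 ≤ N) {o1 o2 c1 : ℝ} (ho1 : o1 ∈ Icc (0:ℝ) (1/2)) (ho2 : o2 ∈ Icc (0:ℝ) (1/2))
    (hc : c1 ≤ 1/100) {g : E3 → ℂ} (hs : ∀ ξ, g ξ ≠ 0 → |‖ξ‖ ^ 2 - 1| ≤ c1 / (N:ℝ) ^ 2)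
    (hg : ∀ ξ, g ξ ≠ 0 → ‖ξ - xist‖ ≤ c1) {k : ℤ × ℤ} {ξ : E3} (h : pc N o1 o2 k g ξ ≠ 0) :
    ‖Bv 26 N (om N k) (ξ - om N k)‖ ≤ 1 := by
  obtain ⟨h1, h2⟩ := pc_supp hN ho1 ho2 hc hs hg h
  have hN' : (4:ℝ) ≤ N := by exact_mod_cast hN
  have hN0 : (0:ℝ) < N := by linarith
  refine (norm_Bv_le (by norm_num) hN0 (norm_om N k) _).trans ?_
  rw [div_le_one (by norm_num)]
  calc (N:ℝ) * ‖ξ - om N k‖ + (N:ℝ) ^ 2 * |(inner ℝ (om N k) (ξ - om N k) : ℝ)| ≤ N * (7 / N) + (N:ℝ) ^ 2 * (19 / (N:ℝ) ^ 2) := by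
        gcongr
    _ = 26 := by field_simp; norm_num

/-- **pointwise bound of the pieces** -/
theorem pt_den (M : ℕ) : ∃ C : ℝ, 0 ≤ C ∧ ∀ (N : ℕ) (o1 o2 c1 : ℝ) (g : E3 → ℂ), 4 ≤ N → o1 ∈ Icc (0:ℝ) (1/2) →
    o2 ∈ Icc (0:ℝ) (1/2) → c1 ≤ 1/100 → Ams c1 N o1 o2 g → ∀ (k : ℤ × ℤ) (z : E3),
    ‖𝓕⁻ (pc N o1 o2 k g) z‖ₑ ^ 2 ≤ ENNReal.ofReal C * den M N o1 o2 g k z := by
  obtain ⟨C, hC, h⟩ := pt_tube M (A := 26) (by norm_num)
  refine ⟨C, hC, ?_⟩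
  intro N o1 o2 c1 g hN ho1 ho2 hc hg k z
  have hN' : (4:ℝ) ≤ N := by exact_mod_cast hN
  exact h N (om N k) (pc N o1 o2 k g) (by linarith) (norm_om N k) (integrable_pc hg.int)
    (fun ζ hζ => pc_Bv hN ho1 ho2 hc hg.sph hg.loc hζ) z

/-! ### Peetre -/

theorem gam_nonneg (N : ℕ) (k : ℤ × ℤ) (x : E3) : 0 ≤ gam N k x := by unfold gam; positivity

theorem gam_add (N : ℕ) (k : ℤ × ℤ) (x y : E3) : gam N k (x + y) ≤ gam N k x + gam N k y := by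
  unfold gam
  have e : (x + y) - (inner ℝ (om N k) (x + y) : ℝ) • om N k =
      (x - (inner ℝ (om N k) x : ℝ) • om N k) + (y - (inner ℝ (om N k) y : ℝ) • om N k) := by
    rw [inner_add_right, add_smul]; abel
  rw [e]
  have h1 := norm_add_le (x - (inner ℝ (om N k) x : ℝ) • om N k) (y - (inner ℝ (om N k) y : ℝ) • om N k)
  have h2 : |(inner ℝ (om N k) (x + y) : ℝ)| ≤ |(inner ℝ (om N k) x : ℝ)| + |(inner ℝ (om N k) y : ℝ)| := by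
    rw [inner_add_right]; exact abs_add_le _ _
  calc _ ≤ (‖x - (inner ℝ (om N k) x : ℝ) • om N k‖ + ‖y - (inner ℝ (om N k) y : ℝ) • om N k‖) / N +
        (|(inner ℝ (om N k) x : ℝ)| + |(inner ℝ (om N k) y : ℝ)|) / (N:ℝ) ^ 2 := by gcongr
    _ = _ := by ring

theorem gam_neg (N : ℕ) (k : ℤ × ℤ) (x : E3) : gam N k (-x) = gam N k x := by
  unfold gam
  rw [inner_neg_right, neg_smul, abs_neg, ← neg_add', norm_neg]
  rfl

theorem gam_le (N : ℕ) (hN : 1 ≤ N) (k : ℤ × ℤ) (x : E3) : gam N k x ≤ 2 * (‖x‖ / N) := by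
  have hN' : (1:ℝ) ≤ N := by exact_mod_cast hN
  have hN0 : (0:ℝ) < N := by linarith
  unfold gam
  have hw := norm_om N k
  have h1 : |(inner ℝ (om N k) x : ℝ)| ≤ ‖x‖ := by
    refine (abs_real_inner_le_norm _ _).trans ?_
    rw [hw, one_mul]
  have h2 : ‖x - (inner ℝ (om N k) x : ℝ) • om N k‖ ≤ ‖x‖ := by
    have h := orth_sq hw 1 (inner ℝ (om N k) x : ℝ) x
    have e : (1:ℝ) • (x - (inner ℝ (om N k) x : ℝ) • om N k) + (inner ℝ (om N k) x : ℝ) • om N k = x := by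
      rw [one_smul]; abel
    rw [e] at h
    apply le_of_sq_le_sq ?_ (norm_nonneg _)
    nlinarith [sq_nonneg (inner ℝ (om N k) x : ℝ)]
  have h3 : |(inner ℝ (om N k) x : ℝ)| / (N:ℝ) ^ 2 ≤ ‖x‖ / N := by
    rw [div_le_div_iff₀ (by positivity) hN0]
    have := norm_nonneg x
    nlinarith [mul_nonneg this hN0.le, mul_nonneg (mul_nonneg this hN0.le) (sub_nonneg.2 hN')]
  calc _ ≤ ‖x‖ / N + ‖x‖ / N := by gcongr
    _ = _ := by ring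

theorem Phs_peetre (M N : ℕ) (k : ℤ × ℤ) (x y : E3) :
    Phs M N k x ≤ ENNReal.ofReal ((1 + gam N k (x - y)) ^ M) * Phs M N k y := by
  unfold Phs
  have g1 := gam_nonneg N k (x - y)
  have g2 := gam_nonneg N k x
  have g3 := gam_nonneg N k y
  rw [← ENNReal.ofReal_mul (by positivity)]
  apply ENNReal.ofReal_le_ofReal
  have h : gam N k y ≤ gam N k x + gam N k (x - y) := by
    have := gam_add N k x (-(x - y))
    rw [gam_neg, show x + -(x - y) = y by abel] at this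
    exact this
  have h2 : (1 + gam N k y) ^ M ≤ (1 + gam N k (x - y)) ^ M * (1 + gam N k x) ^ M := by
    rw [← mul_pow]
    gcongr
    nlinarith
  have h3 : ((1 + gam N k x) ^ M)⁻¹ ≤ (1 + gam N k (x - y)) ^ M * ((1 + gam N k y) ^ M)⁻¹ := by
    rw [← div_eq_mul_inv, le_div_iff₀ (by positivity), inv_mul_le_iff₀ (by positivity)]
    linarith
  calc ((N:ℝ) ^ 4)⁻¹ * ((1 + gam N k x) ^ M)⁻¹ ≤ ((N:ℝ) ^ 4)⁻¹ * ((1 + gam N k (x - y)) ^ M * ((1 + gam N k y) ^ M)⁻¹) := by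
        gcongr
    _ = _ := by ring

theorem den_peetre (M N : ℕ) (o1 o2 : ℝ) (g : E3 → ℂ) (k : ℤ × ℤ) (x y : E3) :
    den M N o1 o2 g k x ≤ ENNReal.ofReal ((1 + gam N k (x - y)) ^ M) * den M N o1 o2 g k y := by
  unfold den
  rw [← lintegral_const_mul' _ _ ENNReal.ofReal_ne_top]
  refine lintegral_mono fun u => ?_
  have := Phs_peetre M N k (x - u) (y - u)
  rw [show (x - u) - (y - u) = x - y by abel] at this
  calc _ ≤ ‖𝓕⁻ (pc N o1 o2 k g) u‖ₑ ^ 2 * (ENNReal.ofReal ((1 + gam N k (x - y)) ^ M) * Phs M N k (y - u)) := by gcongr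
    _ = _ := by ring

theorem den_ball {M N : ℕ} (hN : 1 ≤ N) (o1 o2 : ℝ) (g : E3 → ℂ) (k : ℤ × ℤ) (x y : E3) :
    den M N o1 o2 g k x ≤ ENNReal.ofReal (2 ^ M * (1 + ‖x - y‖ / N) ^ M) * den M N o1 o2 g k y := by
  refine (den_peetre M N o1 o2 g k x y).trans ?_
  gcongr
  rw [← mul_pow]
  have h1 := gam_nonneg N k (x - y)
  gcongr
  have := gam_le N hN k (x - y)
  linarith

/-! ### overlap -/

theorem grd_bd {N : ℕ} (hN : 1 ≤ N) {k : ℤ × ℤ} (hk : k ∈ grd N) :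
    1 + ((k.1:ℝ) / N) ^ 2 + ((k.2:ℝ) / N) ^ 2 ≤ 3 := by
  have hN' : (1:ℝ) ≤ N := by exact_mod_cast hN
  have hN0 : (0:ℝ) < N := by linarith
  unfold grd at hk
  rw [Finset.mem_product, Finset.mem_Ico, Finset.mem_Ico] at hk
  have aux : ∀ j : ℤ, 0 ≤ j → j < N → ((j:ℝ) / N) ^ 2 ≤ 1 := by
    intro j h0 h1
    have a0 : (0:ℝ) ≤ j := by exact_mod_cast h0
    have a1 : (j:ℝ) ≤ N := by exact_mod_cast h1.le
    rw [div_pow, div_le_one (by positivity)]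
    gcongr
  have := aux _ hk.1.1 hk.1.2
  have := aux _ hk.2.1 hk.2.2
  linarith

theorem overlap_om {N : ℕ} (hN : 1 ≤ N) {k : ℤ × ℤ} (hk : k ∈ grd N) :
    ((grd N).filter fun l => ‖om N l - om N k‖ ≤ 2 * (7 + 1) / N).card ≤ 49 ^ 2 := by
  classical
  have hN' : (1:ℝ) ≤ N := by exact_mod_cast hN
  have hN0 : (0:ℝ) < N := by linarith
  have hsub : ((grd N).filter fun l => ‖om N l - om N k‖ ≤ 2 * (7 + 1) / N) ⊆
      Finset.Icc (k.1 - 24) (k.1 + 24) ×ˢ Finset.Icc (k.2 - 24) (k.2 + 24) := by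
    intro l hl
    rw [Finset.mem_filter] at hl
    obtain ⟨h1, h2⟩ := W_low (L := 3) (grd_bd hN hl.1) (grd_bd hN hk)
    have e : ‖W ((l.1:ℝ) / N) ((l.2:ℝ) / N) - W ((k.1:ℝ) / N) ((k.2:ℝ) / N)‖ ≤ 16 / N := by
      have := hl.2
      calc _ ≤ 2 * (7 + 1) / (N:ℝ) := this
        _ = 16 / N := by norm_num
    have aux : ∀ i j : ℤ, 2 * |(i:ℝ) / N - (j:ℝ) / N| ≤ 3 * (16 / N) → i ∈ Finset.Icc (j - 24) (j + 24) := by
      intro i j h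
      have h3 : (i:ℝ) / N - (j:ℝ) / N = (i - j) / N := by ring
      rw [h3, abs_div, abs_of_pos hN0] at h
      have h4 : |(i:ℝ) - j| ≤ 24 := by
        have : 2 * |(i:ℝ) - j| ≤ 3 * 16 := by
          have h5 := mul_le_mul_of_nonneg_right h hN0.le
          field_simp at h5
          linarith
        linarith
      have h5 : |i - j| ≤ 24 := by exact_mod_cast h4
      rw [abs_le] at h5
      rw [Finset.mem_Icc]
      constructor <;> linarith [h5.1, h5.2]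
    rw [Finset.mem_product]
    exact ⟨aux _ _ (h1.trans (by gcongr)), aux _ _ (h2.trans (by gcongr))⟩
  refine (Finset.card_le_card hsub).trans (le_of_eq ?_)
  rw [Finset.card_product, Int.card_Icc, Int.card_Icc]
  have e1 : k.1 + 24 + 1 - (k.1 - 24) = 49 := by ring
  have e2 : k.2 + 24 + 1 - (k.2 - 24) = 49 := by ring
  rw [e1, e2]
  rfl

/-! ### the blocks -/

theorem enorm_sum_sq_le {ι : Type*} (s : Finset ι) (f : ι → ℂ) :
    ‖∑ i ∈ s, f i‖ₑ ^ 2 ≤ s.card * ∑ i ∈ s, ‖f i‖ₑ ^ 2 := by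
  have h1 : ‖∑ i ∈ s, f i‖ ^ 2 ≤ s.card * ∑ i ∈ s, ‖f i‖ ^ 2 := by
    calc ‖∑ i ∈ s, f i‖ ^ 2 ≤ (∑ i ∈ s, ‖f i‖) ^ 2 := by gcongr; exact norm_sum_le _ _
      _ ≤ _ := sq_sum_le_card_mul_sum_sq
  have h2 := ENNReal.ofReal_le_ofReal h1
  rw [ENNReal.ofReal_pow (norm_nonneg _), ofReal_norm, ENNReal.ofReal_mul (by positivity), ENNReal.ofReal_natCast,
    ENNReal.ofReal_sum_of_nonneg (fun i _ => by positivity)] at h2
  refine h2.trans (le_of_eq ?_)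
  congr 1
  refine Finset.sum_congr rfl fun i _ => ?_
  rw [ENNReal.ofReal_pow (norm_nonneg _), ofReal_norm]

theorem stLOC3 : StLOC3 := by
  classical
  intro M
  obtain ⟨C0, hC0, h0⟩ := pt_den M
  obtain ⟨C5, hC5, h5⟩ := K5 M (49 ^ 2)
  refine ⟨1/100, C5 * C0 * 2 ^ M, by norm_num, by positivity, ?_⟩
  intro N o1 o2 g hN ho1 ho2 hg y
  have hN' : (4:ℝ) ≤ N := by exact_mod_cast hN
  have hN0 : (0:ℝ) < N := by linarith
  have h := h5 (ℤ × ℤ) N 7 C0 (2 ^ M) (grd N) (fun k => pc N o1 o2 k g) (om N) (fun k => den M N o1 o2 g k) y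
    hN0 hC0 (by positivity) (fun k _ => integrable_pc hg.int)
    (fun k _ t ht => (pc_supp hN ho1 ho2 le_rfl hg.sph hg.loc ht).1)
    (fun k hk => by
      refine le_trans (le_of_eq ?_) (overlap_om (by omega) hk)
      congr)
    (fun k _ z => h0 N o1 o2 _ g hN ho1 ho2 le_rfl hg k z)
    (fun k _ z => den_ball (by omega) o1 o2 g k z y)
  have e : ∀ x, 𝓕⁻ g x = ∑ k ∈ grd N, 𝓕⁻ (pc N o1 o2 k g) x := fun x => inv_sum hN ho1 ho2 le_rfl hg.int hg.loc x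
  simp_rw [e]
  exact h

theorem card_grd (N : ℕ) : (grd N).card = N ^ 2 := by
  unfold grd
  rw [Finset.card_product, Int.card_Ico]
  simp [sq]

theorem stBER3 : StBER3 := by
  intro M
  obtain ⟨C0, hC0, h0⟩ := pt_den M
  refine ⟨1/100, C0, by norm_num, hC0, ?_⟩
  intro N o1 o2 g hN ho1 ho2 hg y
  have hN' : (4:ℝ) ≤ N := by exact_mod_cast hN
  rw [inv_sum hN ho1 ho2 le_rfl hg.int hg.loc y]
  have h1 : ‖∑ k ∈ grd N, 𝓕⁻ (pc N o1 o2 k g) y‖ₑ ^ 2 ≤ (grd N).card * ∑ k ∈ grd N, ‖𝓕⁻ (pc N o1 o2 k g) y‖ₑ ^ 2 :=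
    enorm_sum_sq_le _ _
  refine h1.trans ?_
  rw [card_grd]
  calc ((N ^ 2 : ℕ) : ℝ≥0∞) * ∑ k ∈ grd N, ‖𝓕⁻ (pc N o1 o2 k g) y‖ₑ ^ 2
      ≤ ENNReal.ofReal ((N:ℝ) ^ 20) * ∑ k ∈ grd N, ENNReal.ofReal C0 * den M N o1 o2 g k y := by
        refine mul_le_mul' ?_ ?_
        · rw [← ENNReal.ofReal_natCast]
          apply ENNReal.ofReal_le_ofReal
          push_cast
          gcongr
          · linarith
          · norm_num
        · exact Finset.sum_le_sum fun k _ => h0 N o1 o2 _ g hN ho1 ho2 le_rfl hg k y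
    _ = _ := by
        rw [← Finset.mul_sum, ← mul_assoc, ← ENNReal.ofReal_mul (by positivity), mul_comm ((N:ℝ) ^ 20)]
        rfl

end Vale.Agent.P117.KC
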