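import Vale.Agent.P106.Tri.Main
import Vale.Agent.P106.G.Pt

/-! # Local orthogonality in three variables (K5, abstract form) -/

open MeasureTheory Complex Set
open scoped ENNReal NNReal ContDiff FourierTransform SchwartzMap ComplexConjugate

set_option linter.all false

namespace Vale.Agent.P117.KC

open Vale.Agent.P117 (E3 fourierInv_mul_conv lintegral_sq_fourier_le)
open Vale.Agent.P106
open Vale.Agent.P106.Tri

theorem continuous_inv {g : E3 → ℂ} (hg : Integrable g) : Continuous (𝓕⁻ g) := by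
  have h : 𝓕⁻ g = fun x => 𝓕 g (-x) := by
    ext x
    exact Real.fourierInv_eq_fourier_neg _ _
  rw [h]
  exact (VectorFourier.fourierIntegral_continuous Real.continuous_fourierChar
    (by exact continuous_inner) hg).comp continuous_neg

theorem norm_inv_le (g : E3 → ℂ) (z : E3) : ‖𝓕⁻ g z‖ ≤ ∫ ζ, ‖g ζ‖ := by
  rw [inv_eq]
  refine (norm_integral_le_integral_norm _).trans (le_of_eq ?_)
  congr 1
  ext v
  rw [norm_mul, norm_ec, one_mul]

theorem continuous_ga {κ : ℝ} {g : E3 → ℂ} (hg : Integrable g) (y : E3) : Continuous (ga κ g y) := by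
  unfold ga
  obtain ⟨C, hC⟩ := Kk_bdd κ
  apply continuous_of_dominated (bound := fun t => C * ‖g t‖)
  · intro ζ
    exact hg.aestronglyMeasurable.mul ((continuous_ky κ y).comp (by fun_prop)).aestronglyMeasurable
  · intro ζ
    filter_upwards with t
    rw [norm_mul, norm_ky, mul_comm]
    gcongr
    exact hC _
  · exact hg.norm.const_mul _
  · filter_upwards with t
    exact continuous_const.mul ((continuous_ky κ y).comp (by fun_prop))

theorem integrable_ga {κ : ℝ} (hκ : 0 < κ) {g : E3 → ℂ} (hg : Integrable g) (y : E3) :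
    Integrable (ga κ g y) := by
  have := hg.integrable_convolution (ContinuousLinearMap.mul ℂ ℂ) (integrable_ky hκ y)
  exact this

theorem integrable_Psi_smul {κ : ℝ} (hκ : 0 < κ) (y : E3) :
    Integrable (fun z : E3 => Tri.Psi (κ • (z - y))) := by
  have := (SchwartzMap.integrable (μ := volume) Tri.Psi).comp_smul hκ.ne'
  exact this.comp_sub_right y

theorem integrable_inv_ga {κ : ℝ} (hκ : 0 < κ) {g : E3 → ℂ} (hg : Integrable g) (y : E3) :
    Integrable (𝓕⁻ (ga κ g y)) := by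
  have e : 𝓕⁻ (ga κ g y) = fun z => Tri.Psi (κ • (z - y)) * 𝓕⁻ g z := by
    ext z; exact inv_ga hκ hg y z
  rw [e]
  apply (integrable_Psi_smul hκ y).mul_bdd (c := ∫ ζ, ‖g ζ‖)
  · exact (continuous_inv hg).aestronglyMeasurable
  · filter_upwards with z
    exact norm_inv_le g z

/-- Plancherel for functions which are continuous with integrable inverse transform -/
theorem plancherel_inv {f : E3 → ℂ} (hf : Integrable f) (hfc : Continuous f)
    (hi : Integrable (𝓕⁻ f)) : ∫⁻ ζ, ‖f ζ‖ₑ ^ 2 = ∫⁻ z, ‖𝓕⁻ f z‖ₑ ^ 2 := by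
  apply le_antisymm
  · have h1 := lintegral_sq_fourier_le hi (continuous_inv hf).measurable
    have hF : Integrable (𝓕 f) := by
      have e : 𝓕 f = fun x => 𝓕⁻ f (-x) := by
        ext x
        rw [Real.fourierInv_eq_fourier_neg, neg_neg]
      rw [e]
      exact hi.comp_neg
    have h2 : 𝓕 (𝓕⁻ f) = f := hfc.fourier_fourierInv_eq hf hF
    rwa [h2] at h1
  · exact lintegral_sq_inv_le hf hfc.measurable

/-- the weight of the ball of radius `K` -/
noncomputable def wt (M : ℕ) (K : ℝ) (u : E3) : ℝ≥0∞ := ENNReal.ofReal (((1 + ‖u‖ / K) ^ M)⁻¹)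

theorem measurable_wt (M : ℕ) (K : ℝ) : Measurable (wt M K) := by
  unfold wt
  fun_prop

theorem lint_wt : ∃ C : ℝ, 0 ≤ C ∧ ∀ K : ℝ, 0 < K → ∫⁻ u, wt 4 K u ≤ ENNReal.ofReal (C * K ^ 3) := by
  have hfin : ∫⁻ u : E3, ENNReal.ofReal ((1 + ‖u‖) ^ (-(4:ℝ))) < ⊤ :=
    finite_integral_one_add_norm (E := E3) (μ := volume) (r := 4) (by
      rw [finrank_euclideanSpace_fin]; norm_num)
  refine ⟨(∫⁻ u : E3, ENNReal.ofReal ((1 + ‖u‖) ^ (-(4:ℝ)))).toReal, ENNReal.toReal_nonneg, ?_⟩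
  intro K hK
  have e : ∀ u : E3, wt 4 K u = (fun v : E3 => ENNReal.ofReal ((1 + ‖v‖) ^ (-(4:ℝ)))) (K⁻¹ • u) := by
    intro u
    unfold wt
    simp only
    rw [norm_smul, norm_inv, Real.norm_of_nonneg hK.le, Real.rpow_neg (by positivity)]
    congr 2
    rw [show (4:ℝ) = ((4:ℕ):ℝ) by norm_num, Real.rpow_natCast, div_eq_inv_mul]
  simp_rw [e]
  rw [lintegral_smul3 (f := fun v : E3 => ENNReal.ofReal ((1 + ‖v‖) ^ (-(4:ℝ)))) (inv_pos.2 hK)
    (by fun_prop)]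
  rw [mul_comm (ENNReal.toReal _), ENNReal.ofReal_mul (by positivity), ENNReal.ofReal_toReal hfin.ne]
  gcongr
  apply le_of_eq
  field_simp

/-- window radius -/
noncomputable def r0 : ℝ := min (Classical.choose Psi_low) 1

theorem r0_pos : 0 < r0 := lt_min (Classical.choose_spec Psi_low).1 one_pos
theorem r0_le : r0 ≤ 1 := min_le_right _ _
theorem r0_spec {x : E3} (h : ‖x‖ ≤ r0) : 1/2 ≤ ‖Tri.Psi x‖ :=
  (Classical.choose_spec Psi_low).2 x (h.trans (min_le_left _ _))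

theorem Psi_wt (M : ℕ) : ∃ C : ℝ, 0 ≤ C ∧ ∀ (K : ℝ), 0 < K → ∀ x : E3,
    ‖Tri.Psi ((r0 / K) • x)‖ₑ ^ 2 ≤ ENNReal.ofReal C * wt M K x := by
  obtain ⟨C, hC, h⟩ := Psi_decay M
  have hr := r0_pos
  have hr1 := r0_le
  refine ⟨C * (r0⁻¹) ^ M, by positivity, ?_⟩
  intro K hK x
  unfold wt
  rw [← ENNReal.ofReal_mul (by positivity), ← ofReal_norm, ← ENNReal.ofReal_pow (norm_nonneg _)]
  apply ENNReal.ofReal_le_ofReal
  refine (h _).trans ?_
  rw [norm_smul, Real.norm_of_nonneg (by positivity)]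
  have h1 : r0 * (1 + ‖x‖ / K) ≤ 1 + r0 / K * ‖x‖ := by
    have : r0 / K * ‖x‖ = r0 * (‖x‖ / K) := by ring
    rw [this]; linarith
  have h2 : ((1 + r0 / K * ‖x‖) ^ M)⁻¹ ≤ ((r0 * (1 + ‖x‖ / K)) ^ M)⁻¹ := by
    gcongr
  calc C * ((1 + r0 / K * ‖x‖) ^ M)⁻¹ ≤ C * ((r0 * (1 + ‖x‖ / K)) ^ M)⁻¹ := by gcongr
    _ = _ := by rw [mul_pow, mul_inv, ← inv_pow r0]; ring

open Classical in
/-- **local orthogonality**: functions with Fourier supports in finitely overlapping balls of radius `1/K`, on a ball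
of radius `K` -/
theorem LO3 (M P : ℕ) : ∃ C : ℝ, 0 ≤ C ∧ ∀ (ι : Type) (K A : ℝ) (S : Finset ι) (g : ι → E3 → ℂ)
    (w : ι → E3), 0 < K → (∀ k ∈ S, Integrable (g k)) → (∀ k ∈ S, ∀ t, g k t ≠ 0 → ‖t - w k‖ ≤ A / K) →
    (∀ k ∈ S, (S.filter fun l => ‖w l - w k‖ ≤ 2 * (A + 1) / K).card ≤ P) → ∀ y : E3,
    ∫⁻ z in Metric.closedBall y K, ‖∑ k ∈ S, 𝓕⁻ (g k) z‖ₑ ^ 2 ≤
      ENNReal.ofReal C * ∑ k ∈ S, ∫⁻ z, ‖𝓕⁻ (g k) z‖ₑ ^ 2 * wt M K (z - y) := by
  obtain ⟨C, hC, hPsi⟩ := Psi_wt M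
  refine ⟨4 * P * C, by positivity, ?_⟩
  intro ι K A S g w hK hg hs hP y
  set κ := r0 / K with hκd
  have hκ : 0 < κ := div_pos r0_pos hK
  have hκK : κ ≤ 1 / K := by rw [hκd]; gcongr; exact r0_le
  have hga : ∀ k ∈ S, Integrable (ga κ (g k) y) := fun k hk => integrable_ga hκ (hg k hk) y
  -- overlap
  have hov : ∀ i ∈ S, (S.filter (fun j => ∃ ζ, ga κ (g i) y ζ ≠ 0 ∧ ga κ (g j) y ζ ≠ 0)).card ≤ P := by
    intro i hi
    refine (Finset.card_le_card ?_).trans (hP i hi)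
    intro j hj
    rw [Finset.mem_filter] at hj ⊢
    obtain ⟨hj, ζ, h1, h2⟩ := hj
    refine ⟨hj, ?_⟩
    obtain ⟨t, t1, t2⟩ := ga_supp hκ h1
    obtain ⟨s, s1, s2⟩ := ga_supp hκ h2
    have a1 := hs i hi t t1
    have a2 := hs j hj s s1
    have e : w j - w i = -(s - w j) + (-(ζ - s)) + ((ζ - t) + (t - w i)) := by abel
    rw [e]
    refine (norm_add_le _ _).trans ?_
    have b1 : ‖-(s - w j) + (-(ζ - s))‖ ≤ A / K + κ := by
      refine (norm_add_le _ _).trans ?_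
      rw [norm_neg, norm_neg]
      linarith
    have b2 : ‖(ζ - t) + (t - w i)‖ ≤ κ + A / K := (norm_add_le _ _).trans (by linarith)
    have e3 : 2 * (A + 1) / K = (A / K + 1 / K) + (1 / K + A / K) := by ring
    rw [e3]
    linarith
  -- the sum
  set h : E3 → ℂ := fun ζ => ∑ k ∈ S, ga κ (g k) y ζ with hh
  have hinv : ∀ z, 𝓕⁻ h z = Tri.Psi (κ • (z - y)) * ∑ k ∈ S, 𝓕⁻ (g k) z := by
    intro z
    have e1 : 𝓕⁻ h z = ∑ k ∈ S, 𝓕⁻ (ga κ (g k) y) z := by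
      rw [inv_eq]
      simp_rw [inv_eq, hh, Finset.mul_sum]
      rw [integral_finset_sum]
      intro k hk
      have := (hga k hk)
      refine this.bdd_mul (c := 1) ?_ ?_
      · exact (continuous_ec.comp (by fun_prop)).aestronglyMeasurable
      · filter_upwards with v
        rw [norm_ec]
    rw [e1, Finset.mul_sum]
    refine Finset.sum_congr rfl fun k hk => ?_
    exact inv_ga hκ (hg k hk) y z
  have hint : Integrable h := integrable_finset_sum _ hga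
  have hcont : Continuous h := continuous_finset_sum _ fun k hk => continuous_ga (hg k hk) y
  -- lower bound by the window
  have low : ∫⁻ z in Metric.closedBall y K, ‖∑ k ∈ S, 𝓕⁻ (g k) z‖ₑ ^ 2 ≤ 4 * ∫⁻ z, ‖𝓕⁻ h z‖ₑ ^ 2 := by
    rw [← lintegral_const_mul' _ _ (by norm_num)]
    refine (setLIntegral_mono' measurableSet_closedBall ?_).trans (setLIntegral_le_lintegral _ _)
    intro z hz
    rw [hinv, enorm_mul, mul_pow, ← mul_assoc]
    have hz' : ‖z - y‖ ≤ K := by rwa [Metric.mem_closedBall, dist_eq_norm] at hz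
    have h1 : 1/2 ≤ ‖Tri.Psi (κ • (z - y))‖ := by
      apply r0_spec
      rw [norm_smul, Real.norm_of_nonneg hκ.le, hκd, div_mul_eq_mul_div, div_le_iff₀ hK]
      gcongr
      exact r0_pos.le
    have h2 : (1:ℝ≥0∞) ≤ 4 * ‖Tri.Psi (κ • (z - y))‖ₑ ^ 2 := by
      have h3 : ENNReal.ofReal (1/2) ≤ ‖Tri.Psi (κ • (z - y))‖ₑ := by
        rw [← ofReal_norm]; exact ENNReal.ofReal_le_ofReal h1
      calc (1:ℝ≥0∞) = 4 * ENNReal.ofReal (1/2) ^ 2 := by
            rw [← ENNReal.ofReal_pow (by norm_num), show (4:ℝ≥0∞) = ENNReal.ofReal 4 by norm_num,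
              ← ENNReal.ofReal_mul (by norm_num)]
            norm_num
        _ ≤ _ := by gcongr
    calc ‖∑ k ∈ S, 𝓕⁻ (g k) z‖ₑ ^ 2 = 1 * ‖∑ k ∈ S, 𝓕⁻ (g k) z‖ₑ ^ 2 := (one_mul _).symm
      _ ≤ _ := by gcongr
  have up : ∫⁻ z, ‖𝓕⁻ h z‖ₑ ^ 2 ≤ P * ∑ k ∈ S, ENNReal.ofReal C * ∫⁻ z, ‖𝓕⁻ (g k) z‖ₑ ^ 2 * wt M K (z - y) := by
    calc ∫⁻ z, ‖𝓕⁻ h z‖ₑ ^ 2 ≤ ∫⁻ ζ, ‖h ζ‖ₑ ^ 2 := lintegral_sq_inv_le hint hcont.measurable
      _ ≤ ∫⁻ ζ, (P:ℝ≥0∞) * ∑ k ∈ S, ‖ga κ (g k) y ζ‖ₑ ^ 2 :=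
          lintegral_mono fun ζ => Vale.Agent.P106.G.overlap_pt S (fun k => ga κ (g k) y) P hov ζ
      _ = (P:ℝ≥0∞) * ∑ k ∈ S, ∫⁻ ζ, ‖ga κ (g k) y ζ‖ₑ ^ 2 := by
          rw [lintegral_const_mul' _ _ (ENNReal.natCast_ne_top _), lintegral_finset_sum']
          intro k hk
          exact ((continuous_ga (hg k hk) y).measurable.enorm.pow_const 2).aemeasurable
      _ ≤ _ := by
          gcongr with k hk
          rw [plancherel_inv (hga k hk) (continuous_ga (hg k hk) y) (integrable_inv_ga hκ (hg k hk) y),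
            ← lintegral_const_mul' _ _ ENNReal.ofReal_ne_top]
          refine lintegral_mono fun z => ?_
          rw [inv_ga hκ (hg k hk), enorm_mul, mul_pow]
          calc _ ≤ (ENNReal.ofReal C * wt M K (z - y)) * ‖𝓕⁻ (g k) z‖ₑ ^ 2 := by
                gcongr
                exact hPsi K hK (z - y)
            _ = _ := by ring
  refine low.trans ((mul_le_mul' le_rfl up).trans (le_of_eq ?_))
  rw [← Finset.mul_sum, ENNReal.ofReal_mul (by positivity), ENNReal.ofReal_mul (by positivity)]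
  simp only [ENNReal.ofReal_ofNat, ENNReal.ofReal_natCast]
  ring

open Classical in
/-- **K5, abstract form** -/
theorem K5 (M P : ℕ) : ∃ C : ℝ, 0 ≤ C ∧ ∀ (ι : Type) (K A C1 C2 : ℝ) (S : Finset ι) (g : ι → E3 → ℂ)
    (w : ι → E3) (n : ι → E3 → ℝ≥0∞) (y : E3), 0 < K → 0 ≤ C1 → 0 ≤ C2 → (∀ k ∈ S, Integrable (g k)) →
    (∀ k ∈ S, ∀ t, g k t ≠ 0 → ‖t - w k‖ ≤ A / K) →
    (∀ k ∈ S, (S.filter fun l => ‖w l - w k‖ ≤ 2 * (A + 1) / K).card ≤ P) →
    (∀ k ∈ S, ∀ z, ‖𝓕⁻ (g k) z‖ₑ ^ 2 ≤ ENNReal.ofReal C1 * n k z) →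
    (∀ k ∈ S, ∀ z, n k z ≤ ENNReal.ofReal (C2 * (1 + ‖z - y‖ / K) ^ M) * n k y) →
    ∫⁻ z in Metric.closedBall y K, ‖∑ k ∈ S, 𝓕⁻ (g k) z‖ₑ ^ 2 ≤
      ENNReal.ofReal (C * C1 * C2 * K ^ 3) * ∑ k ∈ S, n k y := by
  obtain ⟨C, hC, h⟩ := LO3 (M + 4) P
  obtain ⟨Cw, hCw, hw⟩ := lint_wt
  refine ⟨C * Cw, by positivity, ?_⟩
  intro ι K A C1 C2 S g w n y hK hC1 hC2 hg hs hP hpt hsl
  refine (h ι K A S g w hK hg hs hP y).trans ?_
  have hk : ∀ k ∈ S, ∫⁻ z, ‖𝓕⁻ (g k) z‖ₑ ^ 2 * wt (M + 4) K (z - y) ≤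
      ENNReal.ofReal (C1 * C2 * (Cw * K ^ 3)) * n k y := by
    intro k hk
    calc ∫⁻ z, ‖𝓕⁻ (g k) z‖ₑ ^ 2 * wt (M + 4) K (z - y)
        ≤ ∫⁻ z, (ENNReal.ofReal (C1 * C2) * n k y) * wt 4 K (z - y) := by
          refine lintegral_mono fun z => ?_
          have e : wt (M + 4) K (z - y) = ENNReal.ofReal (((1 + ‖z - y‖ / K) ^ M)⁻¹) * wt 4 K (z - y) := by
            unfold wt
            rw [← ENNReal.ofReal_mul (by positivity), pow_add, mul_inv]
          rw [e, ← mul_assoc]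
          refine mul_le_mul' ?_ le_rfl
          calc ‖𝓕⁻ (g k) z‖ₑ ^ 2 * ENNReal.ofReal (((1 + ‖z - y‖ / K) ^ M)⁻¹)
              ≤ (ENNReal.ofReal C1 * (ENNReal.ofReal (C2 * (1 + ‖z - y‖ / K) ^ M) * n k y)) *
                ENNReal.ofReal (((1 + ‖z - y‖ / K) ^ M)⁻¹) := by
                gcongr
                exact (hpt k hk z).trans (mul_le_mul' le_rfl (hsl k hk z))
            _ = (ENNReal.ofReal C1 * ENNReal.ofReal C2 * (ENNReal.ofReal ((1 + ‖z - y‖ / K) ^ M) *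
                ENNReal.ofReal (((1 + ‖z - y‖ / K) ^ M)⁻¹))) * n k y := by
                rw [ENNReal.ofReal_mul hC2]; ring
            _ = _ := by
                have hp : 0 < (1 + ‖z - y‖ / K) ^ M := by positivity
                rw [← ENNReal.ofReal_mul hp.le, mul_inv_cancel₀ hp.ne', ENNReal.ofReal_one, mul_one,
                  ENNReal.ofReal_mul hC1]
      _ = (ENNReal.ofReal (C1 * C2) * n k y) * ∫⁻ z, wt 4 K (z - y) := by
          rw [lintegral_const_mul]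
          exact (measurable_wt 4 K).comp (measurable_id.sub_const y)
      _ ≤ (ENNReal.ofReal (C1 * C2) * n k y) * ENNReal.ofReal (Cw * K ^ 3) := by
          rw [lintegral_sub_right_eq_self (fun u => wt 4 K u) y]
          gcongr
          exact hw K hK
      _ = _ := by
          rw [ENNReal.ofReal_mul (p := C1 * C2) (by positivity)]; ring
  calc _ ≤ ENNReal.ofReal C * ∑ k ∈ S, ENNReal.ofReal (C1 * C2 * (Cw * K ^ 3)) * n k y := by
        gcongr with k hk'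
        exact hk k hk'
    _ = _ := by
        rw [← Finset.mul_sum, ← mul_assoc, ← ENNReal.ofReal_mul hC]
        congr 2
        ring

end Vale.Agent.P117.KC
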