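import Vale.Agent.P117.KC.Stereo
import Vale.Agent.P106.G.Resc
import Vale.Agent.P117.K.Defs

/-! # Reproducing kernels adapted to the tubes `N × N × N²` -/

open MeasureTheory Complex Set
open scoped ENNReal NNReal ContDiff FourierTransform SchwartzMap ComplexConjugate

set_option linter.all false

namespace Vale.Agent.P117.KC

open Vale.Agent.P117 (E3)
open Vale.Agent.P106.Tri (ec norm_ec enorm_ec ec_add ec_zero continuous_ec inv_eq)
open Vale.Agent.P106.G (mat3 mat3_apply mat3_det mat3_cont mat3_emb integral_mat3 lintegral_mat3 integrable_mat3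
  inner3)

/-- a bump equal to one on the unit ball -/
noncomputable def bmp3 : ContDiffBump (0 : E3) := ⟨1, 2, by norm_num, by norm_num⟩

noncomputable def X0 (x : E3) : ℂ := ((bmp3 x : ℝ) : ℂ)

theorem contDiff_X0 : ContDiff ℝ ∞ X0 := by
  unfold X0
  exact Complex.ofRealCLM.contDiff.comp bmp3.contDiff

theorem hasCompactSupport_X0 : HasCompactSupport X0 := by
  have := bmp3.hasCompactSupport
  exact this.comp_left (g := fun x : ℝ => (x : ℂ)) (by simp)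

theorem X0_one {x : E3} (h : ‖x‖ ≤ 1) : X0 x = 1 := by
  unfold X0
  rw [bmp3.one_of_mem_closedBall (by simpa [bmp3] using h)]
  norm_num

noncomputable def XS : 𝓢(E3, ℂ) := hasCompactSupport_X0.toSchwartzMap contDiff_X0

/-- the Schwartz function with Fourier transform equal to one on the unit ball -/
noncomputable def kS : 𝓢(E3, ℂ) := 𝓕⁻ XS

theorem four_kS (x : E3) : 𝓕 (kS : E3 → ℂ) x = X0 x := by
  have h : 𝓕 kS = XS := by
    unfold kS
    exact FourierTransform.fourier_fourierInv_eq XS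
  rw [← SchwartzMap.fourier_coe, h]
  rfl

theorem kS_decay (M : ℕ) : ∃ C : ℝ, 0 ≤ C ∧ ∀ x : E3, ‖kS x‖ ≤ C * ((1 + ‖x‖) ^ M)⁻¹ := by
  obtain ⟨C0, h0⟩ := kS.decay 0 0
  obtain ⟨C2, h2⟩ := kS.decay M 0
  have hC0 := h0.1
  have hC2 := h2.1
  refine ⟨2 ^ M * (C0 + C2), by positivity, fun x => ?_⟩
  have a0 := h0.2 x
  have a2 := h2.2 x
  simp only [pow_zero, one_mul, norm_iteratedFDeriv_zero] at a0 a2
  rw [← div_eq_mul_inv, le_div_iff₀ (by positivity)]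
  have hb : (1 + ‖x‖) ^ M ≤ 2 ^ M * (1 + ‖x‖ ^ M) := by
    rcases le_total ‖x‖ 1 with h | h
    · calc (1 + ‖x‖) ^ M ≤ 2 ^ M := by gcongr; linarith
        _ ≤ 2 ^ M * (1 + ‖x‖ ^ M) := by
          have : 0 ≤ ‖x‖ ^ M := by positivity
          nlinarith [pow_pos (show (0:ℝ) < 2 by norm_num) M]
    · calc (1 + ‖x‖) ^ M ≤ (2 * ‖x‖) ^ M := by gcongr; linarith
        _ = 2 ^ M * ‖x‖ ^ M := by rw [mul_pow]
        _ ≤ 2 ^ M * (1 + ‖x‖ ^ M) := by
          have : 0 < (2:ℝ) ^ M := by positivity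
          nlinarith
  calc ‖kS x‖ * (1 + ‖x‖) ^ M ≤ ‖kS x‖ * (2 ^ M * (1 + ‖x‖ ^ M)) := by gcongr
    _ = 2 ^ M * (‖kS x‖ + ‖x‖ ^ M * ‖kS x‖) := by ring
    _ ≤ _ := by gcongr

/-! ### the linear maps -/

/-- the contracting map: `A` is the constant, `w` the direction -/
noncomputable def Dm (A N : ℝ) (w : E3) : Matrix (Fin 3) (Fin 3) ℝ :=
  Matrix.of fun i j => A * ((if i = j then 1 / N else 0) + (1 / N ^ 2 - 1 / N) * (w i * w j))

/-- the contracting map as a map of vectors -/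
noncomputable def Dv (A N : ℝ) (w y : E3) : E3 :=
  (A / N) • (y - (inner ℝ w y : ℝ) • w) + (A * (inner ℝ w y : ℝ) / N ^ 2) • w

/-- the expanding map -/
noncomputable def Bv (A N : ℝ) (w y : E3) : E3 :=
  (N / A) • (y - (inner ℝ w y : ℝ) • w) + (N ^ 2 * (inner ℝ w y : ℝ) / A) • w

theorem mat3_Dm (A N : ℝ) (w y : E3) : mat3 (Dm A N w) y = Dv A N w y := by
  ext i
  rw [mat3_apply]
  unfold Dm Dv
  rw [inner3]
  fin_cases i <;> simp <;> ring

theorem det_Dm {A N : ℝ} (hN : 0 < N) {w : E3} (hw : ‖w‖ = 1) : (Dm A N w).det = A ^ 3 / N ^ 4 := by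
  have h := norm3_sq w
  rw [hw] at h
  unfold Dm
  rw [Matrix.det_fin_three]
  simp only [Matrix.of_apply]
  simp only [if_true, Fin.isValue, Fin.reduceEq, if_false, ite_true, ite_false, zero_ne_one, one_ne_zero]
  have hN' : N ≠ 0 := hN.ne'
  field_simp
  have e : w 2 ^ 2 = 1 - w 0 ^ 2 - w 1 ^ 2 := by linarith
  ring_nf
  simp only [show w 2 ^ 2 = 1 - w 0 ^ 2 - w 1 ^ 2 from e]
  ring

theorem inner_Bv_Dv {A N : ℝ} (hA : 0 < A) (hN : 0 < N) {w : E3} (hw : ‖w‖ = 1) (x y : E3) :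
    inner ℝ (Bv A N w x) (Dv A N w y) = (inner ℝ x y : ℝ) := by
  have hww : (inner ℝ w w : ℝ) = 1 := by rw [real_inner_self_eq_norm_sq, hw]; norm_num
  unfold Bv Dv
  simp only [inner_add_left, inner_add_right, inner_smul_left, inner_smul_right, inner_sub_left, inner_sub_right,
    hww, real_inner_comm w x, conj_trivial]
  rw [real_inner_comm x w]
  have h1 := hA.ne'
  have h2 := hN.ne'
  field_simp
  ring

theorem orth_sq {w : E3} (hw : ‖w‖ = 1) (a c : ℝ) (y : E3) :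
    ‖a • (y - (inner ℝ w y : ℝ) • w) + c • w‖ ^ 2 = a ^ 2 * ‖y - (inner ℝ w y : ℝ) • w‖ ^ 2 + c ^ 2 := by
  have hww : (inner ℝ w w : ℝ) = 1 := by rw [real_inner_self_eq_norm_sq, hw]; norm_num
  have ho : (inner ℝ (y - (inner ℝ w y : ℝ) • w) w : ℝ) = 0 := by
    rw [inner_sub_left, inner_smul_left, hww, real_inner_comm w y]
    simp
  generalize y - (inner ℝ w y : ℝ) • w = v at ho ⊢
  have ho' : (inner ℝ w v : ℝ) = 0 := by rw [real_inner_comm]; exact ho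
  rw [← real_inner_self_eq_norm_sq, ← real_inner_self_eq_norm_sq v]
  simp only [inner_add_left, inner_add_right, inner_smul_left, inner_smul_right, hww, ho, ho', conj_trivial]
  ring

/-- the gauge is bounded by the contracting map -/
theorem gauge_le {A N : ℝ} (hA : 1 ≤ A) (hN : 0 < N) {w : E3} (hw : ‖w‖ = 1) (y : E3) :
    ‖y - (inner ℝ w y : ℝ) • w‖ / N + |(inner ℝ w y : ℝ)| / N ^ 2 ≤ 2 * ‖Dv A N w y‖ := by
  have h := orth_sq hw (A / N) (A * (inner ℝ w y : ℝ) / N ^ 2) y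
  have e : Dv A N w y = (A / N) • (y - (inner ℝ w y : ℝ) • w) + (A * (inner ℝ w y : ℝ) / N ^ 2) • w := rfl
  rw [← e] at h
  have h0 := norm_nonneg (Dv A N w y)
  have h1 : ‖y - (inner ℝ w y : ℝ) • w‖ / N ≤ ‖Dv A N w y‖ := by
    apply le_of_sq_le_sq ?_ h0
    rw [h, div_pow, div_pow]
    have : ‖y - (inner ℝ w y : ℝ) • w‖ ^ 2 / N ^ 2 ≤ A ^ 2 / N ^ 2 * ‖y - (inner ℝ w y : ℝ) • w‖ ^ 2 := by
      rw [div_mul_eq_mul_div]
      gcongr
      have : 1 ≤ A ^ 2 := one_le_pow₀ hA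
      nlinarith [sq_nonneg ‖y - (inner ℝ w y : ℝ) • w‖]
    nlinarith [sq_nonneg (A * (inner ℝ w y : ℝ) / N ^ 2)]
  have h2 : |(inner ℝ w y : ℝ)| / N ^ 2 ≤ ‖Dv A N w y‖ := by
    apply le_of_sq_le_sq ?_ h0
    rw [h]
    have h3 : (|(inner ℝ w y : ℝ)| / N ^ 2) ^ 2 ≤ (A * (inner ℝ w y : ℝ) / N ^ 2) ^ 2 := by
      rw [div_pow, div_pow, sq_abs, mul_pow]
      gcongr
      have : 1 ≤ A ^ 2 := one_le_pow₀ hA
      nlinarith [sq_nonneg (inner ℝ w y : ℝ)]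
    have h4 : 0 ≤ (A / N) ^ 2 * ‖y - (inner ℝ w y : ℝ) • w‖ ^ 2 := by positivity
    linarith
  linarith

theorem norm_Bv_le {A N : ℝ} (hA : 0 < A) (hN : 0 < N) {w : E3} (hw : ‖w‖ = 1) (x : E3) :
    ‖Bv A N w x‖ ≤ (N * ‖x‖ + N ^ 2 * |(inner ℝ w x : ℝ)|) / A := by
  have h5 : ‖x - (inner ℝ w x : ℝ) • w‖ ≤ ‖x‖ := by
    have h := orth_sq hw 1 (inner ℝ w x : ℝ) x
    have e : (1:ℝ) • (x - (inner ℝ w x : ℝ) • w) + (inner ℝ w x : ℝ) • w = x := by rw [one_smul]; abel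
    rw [e] at h
    apply le_of_sq_le_sq ?_ (norm_nonneg _)
    nlinarith [sq_nonneg (inner ℝ w x : ℝ)]
  unfold Bv
  refine (norm_add_le _ _).trans ?_
  rw [norm_smul, norm_smul, hw, Real.norm_of_nonneg (by positivity), mul_one, Real.norm_eq_abs, abs_div, abs_mul,
    abs_of_pos hA, abs_of_pos (by positivity : 0 < N ^ 2), add_div, div_mul_eq_mul_div]
  gcongr

/-! ### the kernel -/

/-- reproducing kernel -/
noncomputable def rk (A N : ℝ) (w y : E3) : ℂ := ((A ^ 3 / N ^ 4 : ℝ) : ℂ) * kS (Dv A N w y) * ec (inner ℝ w y)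

theorem continuous_Dv (A N : ℝ) (w : E3) : Continuous (Dv A N w) := by
  have : Dv A N w = mat3 (Dm A N w) := by ext1 y; rw [mat3_Dm]
  rw [this]; exact mat3_cont _

theorem measurable_rk (A N : ℝ) (w : E3) : Measurable (rk A N w) := by
  unfold rk
  have h1 := continuous_Dv A N w
  have h2 := kS.continuous.comp h1
  have h3 := continuous_ec
  have : Continuous (fun y : E3 => ((A ^ 3 / N ^ 4 : ℝ) : ℂ) * kS (Dv A N w y) * ec (inner ℝ w y)) :=
    (continuous_const.mul h2).mul (h3.comp (by fun_prop))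
  exact this.measurable

theorem integrable_rk {A N : ℝ} (hA : 0 < A) (hN : 0 < N) {w : E3} (hw : ‖w‖ = 1) : Integrable (rk A N w) := by
  have hd : (Dm A N w).det ≠ 0 := by rw [det_Dm hN hw]; positivity
  have h1 : Integrable (fun y : E3 => ((A ^ 3 / N ^ 4 : ℝ) : ℂ) * kS (mat3 (Dm A N w) y)) :=
    (integrable_mat3 hd kS.integrable).const_mul _
  refine h1.norm.mono' (measurable_rk A N w).aestronglyMeasurable ?_
  filter_upwards with y
  unfold rk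
  rw [norm_mul, norm_ec, mul_one, mat3_Dm]

theorem lint_rk {A N : ℝ} (hA : 0 < A) (hN : 0 < N) {w : E3} (hw : ‖w‖ = 1) :
    ∫⁻ y, ‖rk A N w y‖ₑ = ∫⁻ u, ‖kS u‖ₑ := by
  have hd : (Dm A N w).det ≠ 0 := by rw [det_Dm hN hw]; positivity
  have h := lintegral_mat3 hd (fun u => ‖kS u‖ₑ)
  have e : ∀ y, ‖rk A N w y‖ₑ = ENNReal.ofReal (A ^ 3 / N ^ 4) * ‖kS (mat3 (Dm A N w) y)‖ₑ := by
    intro y
    unfold rk
    rw [enorm_mul, enorm_mul, enorm_ec, mul_one, mat3_Dm, ← ofReal_norm, Complex.norm_real,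
      Real.norm_of_nonneg (by positivity)]
  simp_rw [e]
  rw [lintegral_const_mul' _ _ ENNReal.ofReal_ne_top, h, ← mul_assoc, ← ENNReal.ofReal_mul (by positivity),
    det_Dm hN hw, abs_of_pos (by positivity)]
  have : A ^ 3 / N ^ 4 * (A ^ 3 / N ^ 4)⁻¹ = 1 := mul_inv_cancel₀ (by positivity)
  rw [this, ENNReal.ofReal_one, one_mul]

theorem int_rk {A N : ℝ} (hA : 0 < A) (hN : 0 < N) {w : E3} (hw : ‖w‖ = 1) (ζ : E3) (h : ‖Bv A N w (ζ - w)‖ ≤ 1) :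
    ∫ y : E3, rk A N w y * ec (-(inner ℝ ζ y)) = 1 := by
  have hd : (Dm A N w).det ≠ 0 := by rw [det_Dm hN hw]; positivity
  rw [← X0_one h, ← four_kS, Real.fourier_eq']
  have hc := integral_mat3 hd (fun v => ec (-(inner ℝ v (Bv A N w (ζ - w)))) * kS v)
  have e : ∀ y : E3, rk A N w y * ec (-(inner ℝ ζ y)) =
      ((A ^ 3 / N ^ 4 : ℝ) : ℂ) * (ec (-(inner ℝ (mat3 (Dm A N w) y) (Bv A N w (ζ - w)))) * kS (mat3 (Dm A N w) y)) := by
    intro y
    unfold rk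
    have e1 : (inner ℝ (mat3 (Dm A N w) y) (Bv A N w (ζ - w)) : ℝ) = inner ℝ ζ y - inner ℝ w y := by
      rw [mat3_Dm, real_inner_comm, inner_Bv_Dv hA hN hw, inner_sub_left]
    rw [e1, show -(inner ℝ ζ y - inner ℝ w y : ℝ) = inner ℝ w y + -(inner ℝ ζ y) by ring, ec_add, mat3_Dm]
    ring
  simp_rw [e]
  rw [integral_const_mul, hc, Complex.real_smul, ← mul_assoc, ← Complex.ofReal_mul, det_Dm hN hw,
    abs_of_pos (by positivity : 0 < (A ^ 3 / N ^ 4)⁻¹), mul_inv_cancel₀ (by positivity), Complex.ofReal_one, one_mul]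
  congr 1
  ext v
  rw [smul_eq_mul]
  congr 1
  unfold ec
  congr 1
  push_cast
  ring

theorem repro {A N : ℝ} (hA : 0 < A) (hN : 0 < N) {w : E3} (hw : ‖w‖ = 1) {g : E3 → ℂ} (hg : Integrable g)
    (hs : ∀ ζ, g ζ ≠ 0 → ‖Bv A N w (ζ - w)‖ ≤ 1) (z : E3) :
    𝓕⁻ g z = ∫ y, rk A N w y * 𝓕⁻ g (z - y) := by
  have hint : Integrable (fun p : E3 × E3 => rk A N w p.1 * (ec (inner ℝ p.2 (z - p.1)) * g p.2))
      (volume.prod volume) := by
    have h1 : Integrable (fun p : E3 × E3 => rk A N w p.1 * g p.2) (volume.prod volume) :=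
      (integrable_rk hA hN hw).mul_prod hg
    refine h1.norm.mono' ?_ ?_
    · have h2 := continuous_ec
      have h3 : Continuous (fun p : E3 × E3 => ec (inner ℝ p.2 (z - p.1))) := h2.comp (by fun_prop)
      have h4 := h1.aestronglyMeasurable.mul h3.aestronglyMeasurable
      refine h4.congr ?_
      filter_upwards with p
      simp only [Pi.mul_apply]
      ring
    · filter_upwards with p
      rw [norm_mul, norm_mul, norm_mul, norm_ec, one_mul]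
  simp_rw [inv_eq g]
  have e1 : ∀ y : E3, rk A N w y * ∫ v, ec (inner ℝ v (z - y)) * g v =
      ∫ v, rk A N w y * (ec (inner ℝ v (z - y)) * g v) := fun y => (integral_const_mul _ _).symm
  simp_rw [e1]
  rw [integral_integral_swap hint]
  congr 1
  ext v
  have e2 : ∀ y : E3, rk A N w y * (ec (inner ℝ v (z - y)) * g v) =
      (ec (inner ℝ v z) * g v) * (rk A N w y * ec (-(inner ℝ v y))) := by
    intro y
    rw [inner_sub_right, sub_eq_add_neg, ec_add]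
    ring
  simp_rw [e2]
  rw [integral_const_mul]
  by_cases hv : g v = 0
  · rw [hv]; simp
  · rw [int_rk hA hN hw v (hs v hv), mul_one]

/-- weighted Cauchy-Schwarz -/
theorem cs_w {α : Type*} [MeasurableSpace α] {μ : Measure α} {u v : α → ℝ≥0∞} (hu : AEMeasurable u μ) (hv : AEMeasurable v μ) :
    (∫⁻ x, u x * v x ∂μ) ^ 2 ≤ (∫⁻ x, u x ∂μ) * ∫⁻ x, u x * v x ^ 2 ∂μ := by
  have h := ENNReal.lintegral_mul_le_Lp_mul_Lq μ (p := 2) (q := 2) (by constructor <;> norm_num)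
    (f := fun x => u x ^ (1/2:ℝ)) (g := fun x => u x ^ (1/2:ℝ) * v x)
    (hu.pow_const _) ((hu.pow_const _).mul hv)
  have e1 : ∀ x, u x ^ (1/2:ℝ) * (u x ^ (1/2:ℝ) * v x) = u x * v x := by
    intro x
    rw [← mul_assoc, ← ENNReal.rpow_add_of_nonneg _ _ (by norm_num) (by norm_num)]
    norm_num
  have e2 : ∀ x, (u x ^ (1/2:ℝ)) ^ (2:ℝ) = u x := by
    intro x
    rw [← ENNReal.rpow_mul]; norm_num
  have e3 : ∀ x, (u x ^ (1/2:ℝ) * v x) ^ (2:ℝ) = u x * v x ^ 2 := by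
    intro x
    rw [ENNReal.mul_rpow_of_nonneg _ _ (by norm_num), ← ENNReal.rpow_mul]
    norm_num
  simp only [Pi.mul_apply] at h
  simp only [e1, e2, e3] at h
  have h2 := pow_le_pow_left₀ (zero_le) h 2
  refine h2.trans (le_of_eq ?_)
  rw [mul_pow, ← ENNReal.rpow_natCast, ← ENNReal.rpow_natCast, ← ENNReal.rpow_mul, ← ENNReal.rpow_mul]
  norm_num

/-- **pointwise bound by the tube average** -/
theorem pt_tube (M : ℕ) {A : ℝ} (hA : 1 ≤ A) : ∃ C : ℝ, 0 ≤ C ∧ ∀ (N : ℝ) (w : E3) (g : E3 → ℂ), 0 < N → ‖w‖ = 1 →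
    Integrable g → (∀ ζ, g ζ ≠ 0 → ‖Bv A N w (ζ - w)‖ ≤ 1) → ∀ z,
    ‖𝓕⁻ g z‖ₑ ^ 2 ≤ ENNReal.ofReal C * ∫⁻ y, ‖𝓕⁻ g y‖ₑ ^ 2 * ENNReal.ofReal ((N ^ 4)⁻¹ *
      ((1 + (‖(z - y) - (inner ℝ w (z - y) : ℝ) • w‖ / N + |(inner ℝ w (z - y) : ℝ)| / N ^ 2)) ^ M)⁻¹) := by
  obtain ⟨C1, hC1, h1⟩ := kS_decay M
  have hfin : ∫⁻ u, ‖kS u‖ₑ ≠ ⊤ := kS.integrable.2.ne
  set I := (∫⁻ u, ‖kS u‖ₑ).toReal with hI
  have hA0 : 0 < A := by linarith
  refine ⟨I * (C1 * A ^ 3 * 2 ^ M), by positivity, ?_⟩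
  intro N w g hN hw hg hs z
  have hm := (continuous_inv hg).measurable
  have mr := measurable_rk A N w
  rw [repro hA0 hN hw hg hs z]
  have s1 : ‖∫ y, rk A N w y * 𝓕⁻ g (z - y)‖ₑ ^ 2 ≤ (∫⁻ y, ‖rk A N w y‖ₑ * ‖𝓕⁻ g (z - y)‖ₑ) ^ 2 := by
    gcongr
    refine (enorm_integral_le_lintegral_enorm _).trans (le_of_eq ?_)
    refine lintegral_congr fun y => ?_
    rw [enorm_mul]
  refine s1.trans ((cs_w (by fun_prop) (by fun_prop)).trans ?_)
  rw [lint_rk hA0 hN hw, ← ENNReal.ofReal_toReal hfin, ← hI, ENNReal.ofReal_mul (by positivity), mul_assoc]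
  gcongr
  rw [← lintegral_const_mul' _ _ ENNReal.ofReal_ne_top]
  rw [← lintegral_sub_left_eq_self (fun y => ENNReal.ofReal (C1 * A ^ 3 * 2 ^ M) * (‖𝓕⁻ g y‖ₑ ^ 2 * ENNReal.ofReal ((N ^ 4)⁻¹ *
      ((1 + (‖(z - y) - (inner ℝ w (z - y) : ℝ) • w‖ / N + |(inner ℝ w (z - y) : ℝ)| / N ^ 2)) ^ M)⁻¹))) z]
  refine lintegral_mono fun y => ?_
  simp only [sub_sub_cancel]
  have key : ‖rk A N w y‖ₑ ≤ ENNReal.ofReal (C1 * A ^ 3 * 2 ^ M) * ENNReal.ofReal ((N ^ 4)⁻¹ *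
      ((1 + (‖y - (inner ℝ w y : ℝ) • w‖ / N + |(inner ℝ w y : ℝ)| / N ^ 2)) ^ M)⁻¹) := by
    rw [← ENNReal.ofReal_mul (by positivity), ← ofReal_norm]
    apply ENNReal.ofReal_le_ofReal
    unfold rk
    rw [norm_mul, norm_mul, norm_ec, mul_one, Complex.norm_real, Real.norm_of_nonneg (by positivity)]
    have h2 := h1 (Dv A N w y)
    have h3 := gauge_le hA hN hw y
    set G := ‖y - (inner ℝ w y : ℝ) • w‖ / N + |(inner ℝ w y : ℝ)| / N ^ 2 with hG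
    have hG0 : 0 ≤ G := by positivity
    have h4 : ((1 + ‖Dv A N w y‖) ^ M)⁻¹ ≤ 2 ^ M * ((1 + G) ^ M)⁻¹ := by
      have h5 : (1 + G) ^ M ≤ 2 ^ M * (1 + ‖Dv A N w y‖) ^ M := by
        rw [← mul_pow]
        gcongr
        have := norm_nonneg (Dv A N w y)
        linarith
      rw [← div_eq_mul_inv, le_div_iff₀ (by positivity), inv_mul_le_iff₀ (by positivity)]
      linarith
    calc A ^ 3 / N ^ 4 * ‖kS (Dv A N w y)‖ ≤ A ^ 3 / N ^ 4 * (C1 * (2 ^ M * ((1 + G) ^ M)⁻¹)) := by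
          gcongr
          exact h2.trans (by gcongr)
      _ = _ := by ring
  calc ‖rk A N w y‖ₑ * ‖𝓕⁻ g (z - y)‖ₑ ^ 2 ≤ _ := mul_le_mul' key le_rfl
    _ = _ := by ring

end Vale.Agent.P117.KC
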