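import Vale.Agent.P117.KC.LO3

/-! # Stereographic coordinates on the sphere: geometry of the caps -/

open MeasureTheory Complex Set
open scoped ENNReal NNReal

set_option linter.all false

namespace Vale.Agent.P117.KC

open Vale.Agent.P117 (E3)

/-- the point of the sphere with the stereographic coordinates `(a, b)` -/
noncomputable def W (a b : ℝ) : E3 :=
  !₂[2 * a / (1 + a ^ 2 + b ^ 2), 2 * b / (1 + a ^ 2 + b ^ 2), (1 - a ^ 2 - b ^ 2) / (1 + a ^ 2 + b ^ 2)]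

theorem W0 (a b : ℝ) : W a b 0 = 2 * a / (1 + a ^ 2 + b ^ 2) := rfl
theorem W1 (a b : ℝ) : W a b 1 = 2 * b / (1 + a ^ 2 + b ^ 2) := rfl
theorem W2 (a b : ℝ) : W a b 2 = (1 - a ^ 2 - b ^ 2) / (1 + a ^ 2 + b ^ 2) := rfl

theorem norm3_sq (x : E3) : ‖x‖ ^ 2 = x 0 ^ 2 + x 1 ^ 2 + x 2 ^ 2 := by
  rw [EuclideanSpace.norm_sq_eq, Fin.sum_univ_three]
  simp only [Real.norm_eq_abs, sq_abs]

theorem den_pos (a b : ℝ) : 0 < 1 + a ^ 2 + b ^ 2 := by positivity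

theorem norm_W (a b : ℝ) : ‖W a b‖ = 1 := by
  have h := norm3_sq (W a b)
  have hd := (den_pos a b).ne'
  rw [W0, W1, W2] at h
  have : ‖W a b‖ ^ 2 = 1 := by
    rw [h]; field_simp; ring
  nlinarith [norm_nonneg (W a b)]

theorem W_dist_sq (a b c d : ℝ) : ‖W a b - W c d‖ ^ 2 =
    4 * ((a - c) ^ 2 + (b - d) ^ 2) / ((1 + a ^ 2 + b ^ 2) * (1 + c ^ 2 + d ^ 2)) := by
  rw [norm3_sq]
  simp only [PiLp.sub_apply, W0, W1, W2]
  have h1 := (den_pos a b).ne'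
  have h2 := (den_pos c d).ne'
  field_simp
  ring

theorem W_lip (a b c d : ℝ) : ‖W a b - W c d‖ ≤ 2 * (|a - c| + |b - d|) := by
  have h := W_dist_sq a b c d
  have h1 : 1 ≤ (1 + a ^ 2 + b ^ 2) * (1 + c ^ 2 + d ^ 2) := by
    nlinarith [sq_nonneg a, sq_nonneg b, sq_nonneg c, sq_nonneg d, mul_nonneg (sq_nonneg a) (sq_nonneg c),
      mul_nonneg (sq_nonneg a) (sq_nonneg d), mul_nonneg (sq_nonneg b) (sq_nonneg c), mul_nonneg (sq_nonneg b) (sq_nonneg d)]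
  have h2 : ‖W a b - W c d‖ ^ 2 ≤ 4 * ((a - c) ^ 2 + (b - d) ^ 2) := by
    rw [h, div_le_iff₀ (by linarith)]
    have : 0 ≤ 4 * ((a - c) ^ 2 + (b - d) ^ 2) := by positivity
    nlinarith
  have h3 : (a - c) ^ 2 + (b - d) ^ 2 ≤ (|a - c| + |b - d|) ^ 2 := by
    have e1 := sq_abs (a - c)
    have e2 := sq_abs (b - d)
    nlinarith [mul_nonneg (abs_nonneg (a - c)) (abs_nonneg (b - d))]
  have h4 : 0 ≤ 2 * (|a - c| + |b - d|) := by positivity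
  apply le_of_sq_le_sq ?_ h4
  calc ‖W a b - W c d‖ ^ 2 ≤ 4 * ((a - c) ^ 2 + (b - d) ^ 2) := h2
    _ ≤ (2 * (|a - c| + |b - d|)) ^ 2 := by nlinarith

/-- lower bound for the distance, in a bounded region -/
theorem W_low {L a b c d : ℝ} (h1 : 1 + a ^ 2 + b ^ 2 ≤ L) (h2 : 1 + c ^ 2 + d ^ 2 ≤ L) :
    2 * |a - c| ≤ L * ‖W a b - W c d‖ ∧ 2 * |b - d| ≤ L * ‖W a b - W c d‖ := by
  have h := W_dist_sq a b c d
  have hL : 1 ≤ L := by nlinarith [sq_nonneg a, sq_nonneg b]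
  have hp : 0 < (1 + a ^ 2 + b ^ 2) * (1 + c ^ 2 + d ^ 2) := mul_pos (den_pos a b) (den_pos c d)
  have hpL : (1 + a ^ 2 + b ^ 2) * (1 + c ^ 2 + d ^ 2) ≤ L ^ 2 := by
    calc (1 + a ^ 2 + b ^ 2) * (1 + c ^ 2 + d ^ 2) ≤ L * L :=
          mul_le_mul h1 h2 (den_pos c d).le (by linarith)
      _ = L ^ 2 := by ring
  have hq : 4 * ((a - c) ^ 2 + (b - d) ^ 2) = ‖W a b - W c d‖ ^ 2 * ((1 + a ^ 2 + b ^ 2) * (1 + c ^ 2 + d ^ 2)) := by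
    rw [h]; field_simp
  have hq2 : 4 * ((a - c) ^ 2 + (b - d) ^ 2) ≤ (L * ‖W a b - W c d‖) ^ 2 := by
    rw [hq, mul_pow, mul_comm]
    gcongr
  have h0 : 0 ≤ L * ‖W a b - W c d‖ := by positivity
  constructor
  · apply le_of_sq_le_sq ?_ h0
    have e1 := sq_abs (a - c)
    nlinarith [sq_nonneg (b - d)]
  · apply le_of_sq_le_sq ?_ h0
    have e1 := sq_abs (b - d)
    nlinarith [sq_nonneg (a - c)]

/-- distance of a frequency to the point of the sphere with the same stereographic coordinates -/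
theorem dist_W {ξ : E3} {s : ℝ} (hs : 0 < s) (h : s ≤ 1 + ξ 2) :
    ‖ξ - W (ξ 0 / (1 + ξ 2)) (ξ 1 / (1 + ξ 2))‖ ≤ |‖ξ‖ ^ 2 - 1| / s := by
  set t := 1 + ξ 2 with ht
  have ht0 : 0 < t := lt_of_lt_of_le hs h
  set a := ξ 0 / t with ha
  set b := ξ 1 / t with hb
  have e0 : ξ 0 = t * a := by rw [ha]; field_simp
  have e1 : ξ 1 = t * b := by rw [hb]; field_simp
  have e2 : ξ 2 = t - 1 := by rw [ht]; ring
  have hd := (den_pos a b)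
  have hsq : ‖ξ‖ ^ 2 - 1 = t * (t * (1 + a ^ 2 + b ^ 2) - 2) := by
    rw [norm3_sq, e0, e1, e2]; ring
  have hn : ‖ξ - W a b‖ ^ 2 = (t - 2 / (1 + a ^ 2 + b ^ 2)) ^ 2 * (1 + a ^ 2 + b ^ 2) := by
    rw [norm3_sq]
    simp only [PiLp.sub_apply, W0, W1, W2]
    rw [e0, e1, e2]
    field_simp
    ring
  have hn2 : ‖ξ - W a b‖ ^ 2 = (‖ξ‖ ^ 2 - 1) ^ 2 / (t ^ 2 * (1 + a ^ 2 + b ^ 2)) := by
    rw [hn, hsq]
    field_simp
  have h3 : ‖ξ - W a b‖ ^ 2 ≤ (|‖ξ‖ ^ 2 - 1| / s) ^ 2 := by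
    rw [hn2]
    have e5 : (|‖ξ‖ ^ 2 - 1| / s) ^ 2 = (‖ξ‖ ^ 2 - 1) ^ 2 / s ^ 2 := by
      rw [div_pow |‖ξ‖ ^ 2 - 1| s 2, sq_abs (‖ξ‖ ^ 2 - 1)]
    rw [e5]
    have : s ^ 2 ≤ t ^ 2 * (1 + a ^ 2 + b ^ 2) := by
      have h4 : s ^ 2 ≤ t ^ 2 := by gcongr
      nlinarith [sq_nonneg a, sq_nonneg b, sq_nonneg t, mul_nonneg (sq_nonneg t) (sq_nonneg a), mul_nonneg (sq_nonneg t) (sq_nonneg b)]
    gcongr
  exact le_of_sq_le_sq h3 (by positivity)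

end Vale.Agent.P117.KC
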